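import Vale.Agent.P150.Gauss
import Mathlib.MeasureTheory.Group.Convolution

/-!
# P150 beyond one half: two independent Gaussian vectors combine into one
-/

open MeasureTheory ProbabilityTheory Real

namespace Vale.Agent.P150.Beyond

variable {κ : Type*} [Fintype κ]

theorem std_pair_map {a b r : ℝ} (h : a ^ 2 + b ^ 2 = r ^ 2) :
    (std.prod std).map (fun q : ℝ × ℝ => a * q.1 + b * q.2) = std.map (r * ·) := by
  have e : (fun q : ℝ × ℝ => a * q.1 + b * q.2) =
      (fun q => q.1 + q.2) ∘ Prod.map (a * ·) (b * ·) := rfl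
  have hf : Measurable (Prod.map (a * ·) (b * ·) : ℝ × ℝ → ℝ × ℝ) := by fun_prop
  rw [e, ← Measure.map_map (by fun_prop) hf,
    ← Measure.map_prod_map _ _ (by fun_prop) (by fun_prop)]
  change (std.map (a * ·)).conv (std.map (b * ·)) = _
  simp only [std, gaussianReal_map_const_mul, mul_zero, mul_one,
    gaussianReal_conv_gaussianReal, add_zero]
  congr 1
  ext
  simpa using h

theorem stdPi_pair_map {a b r : ℝ} (h : a ^ 2 + b ^ 2 = r ^ 2) :
    ((stdPi κ).prod (stdPi κ)).map (fun p k => a * p.1 k + b * p.2 k) =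
      (stdPi κ).map fun z k => r * z k := by
  have hp : MeasurePreserving (MeasurableEquiv.arrowProdEquivProdArrow ℝ ℝ κ)
      (Measure.pi fun _ : κ => std.prod std) ((stdPi κ).prod (stdPi κ)) :=
    measurePreserving_arrowProdEquivProdArrow ℝ ℝ κ _ _
  rw [← hp.map_eq, Measure.map_map (by fun_prop) (MeasurableEquiv.measurable _)]
  change (Measure.pi fun _ : κ => std.prod std).map
    (fun q k => (fun v : ℝ × ℝ => a * v.1 + b * v.2) (q k)) = _
  have h1 := (Measure.pi_map_pi (μ := fun _ : κ => std.prod std)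
    (f := fun _ (v : ℝ × ℝ) => a * v.1 + b * v.2) fun _ => by fun_prop)
  have h2 := (Measure.pi_map_pi (μ := fun _ : κ => std) (f := fun _ (x : ℝ) => r * x)
    fun _ => by fun_prop)
  simp only [stdPi, std_pair_map h] at h1 h2 ⊢
  rw [h1, h2]

/-- Averaging a function of the combined vector. -/
theorem integral_pair {a b r : ℝ} (h : a ^ 2 + b ^ 2 = r ^ 2) {F : (κ → ℝ) → ℝ}
    (hF : Measurable F) (hi : Integrable (fun z : κ → ℝ => F fun k => r * z k) (stdPi κ)) :
    ∫ z, ∫ z', F (fun k => a * z k + b * z' k) ∂stdPi κ ∂stdPi κ =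
        ∫ z, F (fun k => r * z k) ∂stdPi κ ∧
      Integrable (fun z => ∫ z', F (fun k => a * z k + b * z' k) ∂stdPi κ) (stdPi κ) := by
  have hm : Measurable fun p : (κ → ℝ) × (κ → ℝ) => fun k => a * p.1 k + b * p.2 k := by fun_prop
  have hr : Measurable fun z : κ → ℝ => fun k => r * z k := by fun_prop
  have h1 : Integrable (fun p : (κ → ℝ) × (κ → ℝ) => F fun k => a * p.1 k + b * p.2 k)
      ((stdPi κ).prod (stdPi κ)) := by
    refine (integrable_map_measure hF.aestronglyMeasurable hm.aemeasurable).1 ?_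
    rw [stdPi_pair_map h]
    exact (integrable_map_measure hF.aestronglyMeasurable hr.aemeasurable).2 hi
  refine ⟨?_, h1.integral_prod_left⟩
  rw [← integral_prod (fun p : (κ → ℝ) × (κ → ℝ) => F fun k => a * p.1 k + b * p.2 k) h1,
    ← integral_map hm.aemeasurable hF.aestronglyMeasurable, stdPi_pair_map h,
    integral_map hr.aemeasurable hF.aestronglyMeasurable]

end Vale.Agent.P150.Beyond
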