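import Vale.Agent.P150.Beyond.Interfaces
import Vale.Agent.P150.Beyond.Field
import Vale.Agent.P150.Beyond.SmallSet
import Vale.Agent.P150.Beyond.Channel.Gauss

/-!
# P150 beyond one half: the Gaussian channel

Observing `A^T σ` through Gaussian noise up to time `t` splits the measure with couplings of strength
`θ` into measures of strength `θ - t` with random fields `y₀ + A Y`.
-/

open Finset MeasureTheory Real
open Vale.Agent.P150.Fast
open Vale.Agent.P150.Fast.Ent (ent entAt phi)

namespace Vale.Agent.P150.Beyond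

variable {n : ℕ}

/-- The signal seen by the channel. -/
noncomputable def chDir (A : Fin n → Fin n → ℝ) (x : Fin n → Bool) (k : Fin n) : ℝ :=
  ∑ i, A i k * spin (x i)

/-- The likelihood of `x` given the observation `Y` at time `t`. -/
noncomputable def chTilt (A : Fin n → Fin n → ℝ) (t : ℝ) (Y : Fin n → ℝ) (x : Fin n → Bool) : ℝ :=
  Real.exp (∑ k, Y k * chDir A x k - t / 2 * ∑ k, chDir A x k ^ 2)

/-- The density of the observation. -/
noncomputable def chG (J : Fin n → Fin n → ℝ) (y₀ : Fin n → ℝ) (A : Fin n → Fin n → ℝ) (t : ℝ)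
    (Y : Fin n → ℝ) : ℝ :=
  ∑ x, weight J y₀ x * chTilt A t Y x

/-- The fields after the observation. -/
noncomputable def chField (A : Fin n → Fin n → ℝ) (y₀ Y : Fin n → ℝ) (i : Fin n) : ℝ :=
  y₀ i + ∑ k, A i k * Y k

variable {g : Edge n → ℝ} {θ t c L : ℝ} {A : Fin n → Fin n → ℝ} {y₀ : Fin n → ℝ}

theorem chDir_sq (hA : IsRoot (skMat n 1 g) c L A) (x : Fin n → Bool) :
    ∑ k, chDir A x k ^ 2 =
      (∑ i, ∑ j, skMat n 1 g i j * spin (x i) * spin (x j)) + c * n := by
  calc ∑ k, chDir A x k ^ 2
      = ∑ k, ∑ i, ∑ j, A i k * A j k * (spin (x i) * spin (x j)) := by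
        refine Finset.sum_congr rfl fun k _ => ?_
        rw [chDir, sq, Finset.sum_mul_sum]
        exact Finset.sum_congr rfl fun i _ => Finset.sum_congr rfl fun j _ => by ring
    _ = ∑ i, ∑ j, (skMat n 1 g i j + if i = j then c else 0) * (spin (x i) * spin (x j)) := by
        rw [Finset.sum_comm]
        refine Finset.sum_congr rfl fun i _ => ?_
        rw [Finset.sum_comm]
        exact Finset.sum_congr rfl fun j _ => by rw [← Finset.sum_mul, hA.gram]
    _ = _ := by
        simp only [add_mul, Finset.sum_add_distrib, ite_mul, zero_mul, Finset.sum_ite_eq,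
          Finset.mem_univ, if_true, spin_mul_spin, mul_one, Finset.sum_const, Finset.card_univ,
          Fintype.card_fin, nsmul_eq_mul, mul_assoc]
        ring

theorem ham_channel (hA : IsRoot (skMat n 1 g) c L A) (θ t : ℝ) (y₀ Y : Fin n → ℝ)
    (x : Fin n → Bool) :
    ham (skMat n (θ - t) g) (chField A y₀ Y) x = ham (skMat n θ g) y₀ x +
      (∑ k, Y k * chDir A x k - t / 2 * ∑ k, chDir A x k ^ 2) + t * c * n / 2 := by
  rw [chDir_sq hA]
  have e1 : ∑ i, chField A y₀ Y i * spin (x i) =
      (∑ i, y₀ i * spin (x i)) + ∑ k, Y k * chDir A x k := by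
    simp only [chField, chDir, add_mul, Finset.sum_add_distrib, Finset.sum_mul, Finset.mul_sum]
    rw [Finset.sum_comm (f := fun i k => A i k * Y k * spin (x i))]
    exact congrArg _ (Finset.sum_congr rfl fun k _ => Finset.sum_congr rfl fun i _ => by ring)
  have e2 : ∀ a : ℝ, ∑ i, ∑ j, skMat n a g i j * spin (x i) * spin (x j) =
      a * ∑ i, ∑ j, skMat n 1 g i j * spin (x i) * spin (x j) := fun a => by
    simp only [Finset.mul_sum]
    exact Finset.sum_congr rfl fun i _ => Finset.sum_congr rfl fun j _ => by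
      rw [skMat_smul]; ring
  simp only [ham, e1, e2 (θ - t), e2 θ]
  ring

theorem chTilt_pos (t : ℝ) (Y : Fin n → ℝ) (x : Fin n → Bool) : 0 < chTilt A t Y x := Real.exp_pos _

theorem chG_pos (J : Fin n → Fin n → ℝ) (t : ℝ) (Y : Fin n → ℝ) : 0 < chG J y₀ A t Y :=
  Finset.sum_pos (fun x _ => mul_pos (weight_pos y₀ x) (Real.exp_pos _)) univ_nonempty

theorem weight_channel (hA : IsRoot (skMat n 1 g) c L A) (θ t : ℝ) (y₀ Y : Fin n → ℝ)
    (x : Fin n → Bool) :
    weight (skMat n (θ - t) g) (chField A y₀ Y) x * chG (skMat n θ g) y₀ A t Y =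
      weight (skMat n θ g) y₀ x * chTilt A t Y x := by
  have hS := (Ent.part_pos (skMat n θ g) y₀).ne'
  have hS' := (Ent.part_pos (skMat n (θ - t) g) (chField A y₀ Y)).ne'
  have e : ∀ y, Real.exp (ham (skMat n (θ - t) g) (chField A y₀ Y) y) =
      Real.exp (ham (skMat n θ g) y₀ y) * chTilt A t Y y * Real.exp (t * c * n / 2) := fun y => by
    rw [ham_channel hA, Real.exp_add, Real.exp_add, chTilt]
  have e' : chG (skMat n θ g) y₀ A t Y * Real.exp (t * c * n / 2) *
      (∑ y, Real.exp (ham (skMat n θ g) y₀ y)) =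
      ∑ y, Real.exp (ham (skMat n (θ - t) g) (chField A y₀ Y) y) := by
    rw [chG, Finset.sum_mul, Finset.sum_mul]
    refine Finset.sum_congr rfl fun y _ => ?_
    rw [e, weight]
    field_simp
  simp only [weight]
  rw [e, ← e']
  have := (chG_pos (A := A) (y₀ := y₀) (skMat n θ g) t Y).ne'
  field_simp

theorem sum_weight_tilt (hA : IsRoot (skMat n 1 g) c L A) (θ t : ℝ) (y₀ Y : Fin n → ℝ)
    (F : (Fin n → Bool) → ℝ) :
    ∑ x, weight (skMat n θ g) y₀ x * chTilt A t Y x * F x =
      chG (skMat n θ g) y₀ A t Y * mean (skMat n (θ - t) g) (chField A y₀ Y) F := by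
  simp only [mean, Finset.mul_sum]
  exact Finset.sum_congr rfl fun x _ => by rw [← weight_channel hA]; ring

theorem integral_chTilt (ht : 0 ≤ t) (x : Fin n → Bool) :
    ∫ z, chTilt A t (fun k => √t * z k) x ∂stdPi (Fin n) = 1 ∧
      Integrable (fun z => chTilt A t (fun k => √t * z k) x) (stdPi (Fin n)) := by
  have e : (fun z : Fin n → ℝ => chTilt A t (fun k => √t * z k) x) =
      fun z => Real.exp (-(t / 2 * ∑ k, chDir A x k ^ 2)) *
        Real.exp (∑ k, (√t * chDir A x k) * z k) := funext fun z => by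
    rw [chTilt, ← Real.exp_add]
    congr 1
    rw [neg_add_eq_sub]
    congr 1
    exact Finset.sum_congr rfl fun k _ => by ring
  rw [e]
  refine ⟨?_, (integrable_exp_dot _).const_mul _⟩
  rw [integral_const_mul, integral_exp_dot, ← Real.exp_add]
  simp only [mul_pow, Real.sq_sqrt ht, ← Finset.mul_sum]
  ring_nf
  exact Real.exp_zero

/-- Averages over the observation are averages under the original measure. -/
theorem integral_chG_mean (hA : IsRoot (skMat n 1 g) c L A) (ht : 0 ≤ t) (θ : ℝ) (y₀ : Fin n → ℝ)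
    (F : (Fin n → Bool) → ℝ) :
    ∫ z, chG (skMat n θ g) y₀ A t (fun k => √t * z k) *
        mean (skMat n (θ - t) g) (chField A y₀ fun k => √t * z k) F ∂stdPi (Fin n) =
      mean (skMat n θ g) y₀ F ∧
      Integrable (fun z => chG (skMat n θ g) y₀ A t (fun k => √t * z k) *
        mean (skMat n (θ - t) g) (chField A y₀ fun k => √t * z k) F) (stdPi (Fin n)) := by
  simp only [← sum_weight_tilt hA]
  have hi := fun x => ((integral_chTilt (A := A) ht x).2.const_mul
    (weight (skMat n θ g) y₀ x)).mul_const (F x)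
  refine ⟨?_, integrable_finsetSum _ fun x _ => hi x⟩
  rw [integral_finsetSum _ fun x _ => hi x, mean]
  refine Finset.sum_congr rfl fun x _ => ?_
  rw [integral_mul_const, integral_const_mul, (integral_chTilt ht x).1, mul_one]

theorem abs_entAt_le (J : Fin n → Fin n → ℝ) (j : Fin n) (f : (Fin n → Bool) → ℝ) :
    ∃ R, ∀ y, |entAt J y j f| ≤ R := by
  obtain ⟨a, ha⟩ := (Set.finite_range f).bddAbove
  obtain ⟨b, hb⟩ := (Set.finite_range f).bddBelow
  obtain ⟨R, hR⟩ := (isCompact_Icc (a := b) (b := a)).exists_bound_of_continuousOn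
    continuous_phi.continuousOn
  refine ⟨2 * R, fun y => ?_⟩
  have hmem : ∀ x, f x ∈ Set.Icc b a := fun x => ⟨hb ⟨x, rfl⟩, ha ⟨x, rfl⟩⟩
  have hc : ∀ x, Fast.cond J y j f x ∈ Set.Icc b a := fun x => by
    obtain ⟨k1, k2⟩ := abs_lt.1 (Real.abs_tanh_lt_one (field J y j x))
    have := convex_Icc b a (hmem (Function.update x j true)) (hmem (Function.update x j false))
      (a := (1 + cmean J y j x) / 2) (b := (1 - cmean J y j x) / 2)
      (by simp only [cmean]; linarith) (by simp only [cmean]; linarith) (by ring)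
    simpa only [smul_eq_mul, Fast.cond] using this
  have hm : ∀ F : (Fin n → Bool) → ℝ, (∀ x, F x ∈ Set.Icc b a) →
      |mean J y fun x => phi (F x)| ≤ R := fun F hF => by
    rw [abs_le]
    constructor
    · refine le_trans (le_of_eq (mean_const y _).symm) (mean_le_mean y fun x => ?_)
      linarith [abs_le.1 (hR _ (hF x))]
    · refine (mean_le_mean y fun x => ?_).trans_eq (mean_const y _)
      linarith [abs_le.1 (hR _ (hF x))]
  rw [entAt]
  exact (abs_sub _ _).trans (by linarith [hm f hmem, hm _ hc])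

theorem integrable_chG_entAt (hA : IsRoot (skMat n 1 g) c L A) (ht : 0 ≤ t) (θ : ℝ) (y₀ : Fin n → ℝ)
    (j : Fin n) (f : (Fin n → Bool) → ℝ) :
    Integrable (fun z => chG (skMat n θ g) y₀ A t (fun k => √t * z k) *
      entAt (skMat n (θ - t) g) (chField A y₀ fun k => √t * z k) j f) (stdPi (Fin n)) := by
  have hm : Continuous fun z : Fin n → ℝ => chG (skMat n θ g) y₀ A t (fun k => √t * z k) *
      entAt (skMat n (θ - t) g) (chField A y₀ fun k => √t * z k) j f := by
    have := continuous_phi
    have htanh : Continuous Real.tanh := by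
      simp only [show Real.tanh = fun a => Real.sinh a / Real.cosh a from
        funext Real.tanh_eq_sinh_div_cosh]
      exact Real.continuous_sinh.div₀ Real.continuous_cosh fun a => (Real.cosh_pos a).ne'
    unfold chG chTilt entAt mean weight ham chField Fast.cond cmean field
    fun_prop (disch := exact fun _ => (Finset.sum_pos (fun _ _ => Real.exp_pos _) univ_nonempty).ne')
  obtain ⟨R, hR⟩ := abs_entAt_le (skMat n (θ - t) g) j f
  refine Integrable.mono' ((integral_chG_mean hA ht θ y₀ fun _ => R).2) hm.aestronglyMeasurable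
    (Filter.Eventually.of_forall fun z => ?_)
  rw [Real.norm_eq_abs, abs_mul, abs_of_pos (chG_pos _ _ _), mean_const]
  exact mul_le_mul_of_nonneg_left (hR _) (chG_pos _ _ _).le

/-- The mixture can only lower the expected conditional entropies. -/
theorem entAt_channel (hA : IsRoot (skMat n 1 g) c L A) (ht : 0 ≤ t) (θ : ℝ) (y₀ : Fin n → ℝ)
    (j : Fin n) {f : (Fin n → Bool) → ℝ} (hf : ∀ x, 0 < f x) :
    ∫ z, chG (skMat n θ g) y₀ A t (fun k => √t * z k) *
        entAt (skMat n (θ - t) g) (chField A y₀ fun k => √t * z k) j f ∂stdPi (Fin n) ≤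
      entAt (skMat n θ g) y₀ j f := by
  have hJ := isCoupling_skMat n θ g
  set u := Fast.cond (skMat n θ g) y₀ j f with hu
  set v : (Fin n → Bool) → ℝ := fun x => Real.log (u x) + 1 with hv
  have hu0 : ∀ x, 0 < u x := fun x => by
    obtain ⟨k1, k2⟩ := abs_lt.1 (Real.abs_tanh_lt_one (field (skMat n θ g) y₀ j x))
    rw [hu, Fast.cond]
    exact add_pos (mul_pos (by simp only [cmean]; linarith) (hf _))
      (mul_pos (by simp only [cmean]; linarith) (hf _))
  have hpt : ∀ Y : Fin n → ℝ,
      entAt (skMat n (θ - t) g) (chField A y₀ Y) j f ≤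
        mean (skMat n (θ - t) g) (chField A y₀ Y)
          (fun x => phi (f x) - (phi (u x) + v x * (f x - u x))) := fun Y => by
    set J' := skMat n (θ - t) g
    set y := chField A y₀ Y
    have hJ' := isCoupling_skMat n (θ - t) g
    have hcnn : ∀ x, 0 ≤ Fast.cond J' y j f x := fun x => by
      obtain ⟨k1, k2⟩ := abs_lt.1 (Real.abs_tanh_lt_one (field J' y j x))
      rw [Fast.cond]
      exact add_nonneg (mul_nonneg (by simp only [cmean]; linarith) (hf _).le)
        (mul_nonneg (by simp only [cmean]; linarith) (hf _).le)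
    have h1 : mean J' y (fun x => phi (u x) + v x * (Fast.cond J' y j f x - u x)) ≤
        mean J' y (fun x => phi (Fast.cond J' y j f x)) := mean_le_mean y fun x => by
      refine le_trans (le_of_eq ?_) (phi_tangent (hcnn x) (hu0 x))
      simp only [hv, phi]
      ring
    have h2 : mean J' y (fun x => v x * Fast.cond J' y j f x) = mean J' y (fun x => v x * f x) := by
      rw [mean_cond y hJ' j (fun x => v x * f x)]
      refine congrArg (mean J' y) (funext fun x => ?_)
      have hvj : ∀ b, v (Function.update x j b) = v x := fun b => by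
        simp only [hv, hu, Ent.cond_update hJ]
      simp only [Fast.cond, hvj]
      ring
    simp only [mul_sub, mean_add, mean_sub] at h1 ⊢
    rw [entAt]
    linarith
  have hi := fun φ => (integral_chG_mean hA ht θ y₀ φ).2
  have hint := integrable_chG_entAt hA ht θ y₀ j f
  refine (integral_mono hint (hi fun x => phi (f x) - (phi (u x) + v x * (f x - u x))) fun z =>
    mul_le_mul_of_nonneg_left (hpt _) (chG_pos _ _ _).le).trans (le_of_eq ?_)
  rw [(integral_chG_mean hA ht θ y₀ _).1, mean_sub, mean_add, entAt, ← hu]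
  have : mean (skMat n θ g) y₀ (fun x => v x * (f x - u x)) = 0 := by
    simp only [mul_sub, mean_sub]
    rw [mean_cond y₀ hJ j (fun x => v x * f x), sub_eq_zero]
    refine congrArg _ (funext fun x => ?_)
    have hvj : ∀ b, v (Function.update x j b) = v x := fun b => by
      simp only [hv, hu, Ent.cond_update hJ]
    simp only [hu, Fast.cond, hvj]
    ring
  rw [this, add_zero]

end Vale.Agent.P150.Beyond
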