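import Vale.Agent.P150.Beyond.Channel.Step

/-!
# P150 beyond one half: a backward Grönwall inequality along the channel
-/

open Finset MeasureTheory Real
open Vale.Agent.P150.Fast
open Vale.Agent.P150.Fast.Ent (ent entAt phi)

namespace Vale.Agent.P150.Beyond

variable {n : ℕ} {g : Edge n → ℝ} {c L : ℝ} {A : Fin n → Fin n → ℝ}

/-- The mean of `u log u` of the posterior means at time `t`. -/
noncomputable def chQ (θ : ℝ) (g : Edge n → ℝ) (y₀ : Fin n → ℝ) (A : Fin n → Fin n → ℝ) (t : ℝ)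
    (f : (Fin n → Bool) → ℝ) : ℝ :=
  ∫ z, chG (skMat n θ g) y₀ A t (fun k => √t * z k) *
    phi (mean (skMat n (θ - t) g) (chField A y₀ fun k => √t * z k) f) ∂stdPi (Fin n)

theorem continuous_chG (J : Fin n → Fin n → ℝ) (y₀ : Fin n → ℝ) (A : Fin n → Fin n → ℝ) (t : ℝ) :
    Continuous (chG J y₀ A t) := by
  unfold chG chTilt
  fun_prop

theorem continuous_mean_chField (J : Fin n → Fin n → ℝ) (y₀ : Fin n → ℝ) (A : Fin n → Fin n → ℝ)
    (F : (Fin n → Bool) → ℝ) : Continuous fun Y => mean J (chField A y₀ Y) F := by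
  unfold mean weight ham chField
  fun_prop (disch := exact fun _ => (Finset.sum_pos (fun _ _ => Real.exp_pos _) univ_nonempty).ne')

theorem integrable_chG_phi (hA : IsRoot (skMat n 1 g) c L A) {t : ℝ} (ht : 0 ≤ t) (θ : ℝ)
    (y₀ : Fin n → ℝ) (f : (Fin n → Bool) → ℝ) :
    Integrable (fun z => chG (skMat n θ g) y₀ A t (fun k => √t * z k) *
      phi (mean (skMat n (θ - t) g) (chField A y₀ fun k => √t * z k) f)) (stdPi (Fin n)) := by
  obtain ⟨a, ha⟩ := (Set.finite_range f).bddAbove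
  obtain ⟨b, hb⟩ := (Set.finite_range f).bddBelow
  obtain ⟨C, hC⟩ := (isCompact_Icc (a := b) (b := a)).exists_bound_of_continuousOn
    continuous_phi.continuousOn
  have hs : Continuous fun z : Fin n → ℝ => fun k => √t * z k := by fun_prop
  refine Integrable.mono' ((integral_chG_mean hA ht θ y₀ fun _ => C).2)
    (((continuous_chG _ _ _ _).comp hs).mul
      (continuous_phi.comp ((continuous_mean_chField _ _ _ _).comp hs))).aestronglyMeasurable
    (Filter.Eventually.of_forall fun z => ?_)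
  rw [Real.norm_eq_abs, abs_mul, abs_of_pos (chG_pos _ _ _), mean_const]
  exact mul_le_mul_of_nonneg_left (hC _
    ⟨(mean_const _ b).symm.trans_le (mean_le_mean _ fun x => hb ⟨x, rfl⟩),
      (mean_le_mean _ fun x => ha ⟨x, rfl⟩).trans_eq (mean_const _ a)⟩) (chG_pos _ _ _).le

/-- The expected posterior entropy. -/
theorem integral_chG_ent (hA : IsRoot (skMat n 1 g) c L A) {t : ℝ} (ht : 0 ≤ t) (θ : ℝ)
    (y₀ : Fin n → ℝ) (f : (Fin n → Bool) → ℝ) :
    ∫ z, chG (skMat n θ g) y₀ A t (fun k => √t * z k) *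
        ent (skMat n (θ - t) g) (chField A y₀ fun k => √t * z k) f ∂stdPi (Fin n) =
      mean (skMat n θ g) y₀ (fun x => phi (f x)) - chQ θ g y₀ A t f ∧
      Integrable (fun z => chG (skMat n θ g) y₀ A t (fun k => √t * z k) *
        ent (skMat n (θ - t) g) (chField A y₀ fun k => √t * z k) f) (stdPi (Fin n)) := by
  obtain ⟨h1, h2⟩ := integral_chG_mean hA ht θ y₀ fun x => phi (f x)
  have h3 := integrable_chG_phi hA ht θ y₀ f
  simp only [ent, mul_sub]
  exact ⟨by rw [integral_sub h2 h3, h1, chQ], h2.sub' h3⟩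

theorem chQ_zero (hA : IsRoot (skMat n 1 g) c L A) (θ : ℝ) (y₀ : Fin n → ℝ)
    (f : (Fin n → Bool) → ℝ) :
    chQ θ g y₀ A 0 f = phi (mean (skMat n θ g) y₀ f) := by
  have hf : chField A y₀ (fun _ => 0) = y₀ := funext fun i => by simp [chField]
  have hG : chG (skMat n θ g) y₀ A 0 (fun _ => 0) = 1 := by
    simp [chG, chTilt, sum_weight y₀]
  simp only [chQ, Real.sqrt_zero, zero_mul, sub_zero, hf, hG, one_mul, integral_const,
    probReal_univ, smul_eq_mul]

theorem mul_le_phi_add {M w : ℝ} (hM : 0 < M) : M * w ≤ phi M + Real.exp (w - 1) := by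
  have := Real.add_one_le_exp (w - 1 - Real.log M)
  rw [Real.exp_sub, Real.exp_log hM, le_div_iff₀ hM] at this
  rw [phi]
  linarith

/-- Donsker-Varadhan: a rare set of observations carries little posterior mass. -/
theorem bad_mass_le (hA : IsRoot (skMat n 1 g) c L A) {t : ℝ} (ht : 0 ≤ t) (θ : ℝ)
    (y₀ : Fin n → ℝ) {f : (Fin n → Bool) → ℝ} (hf : ∀ x, 0 < f x)
    {bad : Set (Fin n → ℝ)} [DecidablePred (· ∈ bad)] (hm : MeasurableSet bad) {l p : ℝ} (hl : 0 < l)
    (hp : ∫ z, (if (fun k => √t * z k) ∈ bad then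
      chG (skMat n θ g) y₀ A t (fun k => √t * z k) else 0) ∂stdPi (Fin n) ≤ p) :
    ∫ z, (if (fun k => √t * z k) ∈ bad then chG (skMat n θ g) y₀ A t (fun k => √t * z k) *
        mean (skMat n (θ - t) g) (chField A y₀ fun k => √t * z k) f else 0) ∂stdPi (Fin n) ≤
      (chQ θ g y₀ A t f + (1 + Real.exp l * p)) / l := by
  have hs : Continuous fun z : Fin n → ℝ => fun k => √t * z k := by fun_prop
  have hms : MeasurableSet {z : Fin n → ℝ | (fun k => √t * z k) ∈ bad} := hs.measurable hm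
  set G := fun z : Fin n → ℝ => chG (skMat n θ g) y₀ A t fun k => √t * z k with hG
  set M := fun z : Fin n → ℝ =>
    mean (skMat n (θ - t) g) (chField A y₀ fun k => √t * z k) f with hMdef
  have iG : Integrable G (stdPi (Fin n)) ∧ ∫ z, G z ∂stdPi (Fin n) = 1 := by
    have := integral_chG_mean hA ht θ y₀ fun _ => (1 : ℝ)
    simp only [mean_const, mul_one] at this
    exact ⟨this.2, this.1⟩
  have iB : Integrable (fun z => if (fun k => √t * z k) ∈ bad then G z else 0) (stdPi (Fin n)) :=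
    (iG.1.indicator hms).congr (Filter.Eventually.of_forall fun z => by
      by_cases hz : (fun k => √t * z k) ∈ bad <;> simp [Set.indicator, hz])
  have iM : Integrable (fun z => if (fun k => √t * z k) ∈ bad then G z * M z else 0)
      (stdPi (Fin n)) :=
    ((integral_chG_mean hA ht θ y₀ f).2.indicator hms).congr (Filter.Eventually.of_forall fun z => by
      by_cases hz : (fun k => √t * z k) ∈ bad <;> simp [Set.indicator, hz, hG, hMdef])
  have hpt : ∀ z, l * (if (fun k => √t * z k) ∈ bad then G z * M z else 0) ≤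
      G z * phi (M z) + (G z + Real.exp l * if (fun k => √t * z k) ∈ bad then G z else 0) :=
    fun z => by
    have hG0 : 0 < G z := chG_pos _ _ _
    have hM0 : 0 < M z := Ent.mean_pos hf
    have e1 : Real.exp (-1) ≤ 1 := Real.exp_le_one_iff.2 (by norm_num)
    by_cases hz : (fun k => √t * z k) ∈ bad
    · simp only [if_pos hz]
      have h := mul_le_mul_of_nonneg_left (mul_le_phi_add (w := l) hM0) hG0.le
      have h' : Real.exp (l - 1) ≤ 1 + Real.exp l := by
        linarith [Real.exp_le_exp.2 (show l - 1 ≤ l by linarith)]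
      linarith [mul_le_mul_of_nonneg_left h' hG0.le]
    · simp only [if_neg hz, mul_zero, add_zero]
      have h := mul_le_mul_of_nonneg_left (mul_le_phi_add (w := 0) hM0) hG0.le
      rw [zero_sub] at h
      linarith [mul_le_mul_of_nonneg_left e1 hG0.le]
  have h := integral_mono (iM.const_mul l) ((integrable_chG_phi hA ht θ y₀ f).add
    (iG.1.add (iB.const_mul (Real.exp l)))) hpt
  simp only [Pi.add_apply] at h
  rw [integral_const_mul, integral_add (integrable_chG_phi hA ht θ y₀ f)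
    (iG.1.fun_add (iB.const_mul _)), integral_add iG.1 (iB.const_mul _), integral_const_mul,
    iG.2] at h
  have := mul_le_mul_of_nonneg_left hp (Real.exp_pos l).le
  rw [le_div_iff₀ hl, mul_comm]
  refine h.trans ?_
  rw [chQ]
  linarith

theorem ent_nonneg {J : Fin n → Fin n → ℝ} {y : Fin n → ℝ} {f : (Fin n → Bool) → ℝ}
    (hf : ∀ x, 0 < f x) : 0 ≤ ent J y f := by
  have hM : 0 < mean J y f := Ent.mean_pos hf
  have h := mean_le_mean y (J := J) fun x => phi_tangent (hf x).le hM
  rw [mean_sub, mean_smul, mean_const] at h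
  simp only [ent, phi] at h ⊢
  linarith

/-- The expected posterior entropy at time `t`. -/
noncomputable def chPhi (θ : ℝ) (g : Edge n → ℝ) (y₀ : Fin n → ℝ) (A : Fin n → Fin n → ℝ) (t : ℝ)
    (f : (Fin n → Bool) → ℝ) : ℝ :=
  mean (skMat n θ g) y₀ (fun x => phi (f x)) - chQ θ g y₀ A t f

variable {T K δ B : ℝ} {N : ℕ}

/-- One step of the backward inequality. -/
theorem chPhi_step (hA : IsRoot (skMat n 1 g) c L A) (hB : ∀ x, ∑ k, chDir A x k ^ 2 ≤ B)
    {h t : ℝ} (h0 : 0 ≤ h) (ht0 : 0 ≤ t) (hK : 0 ≤ K) (hhB : 4 * (h * B) ≤ 1)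
    (hhK : 2 * (h * K) ≤ 1) (θ : ℝ) (y₀ : Fin n → ℝ) {f : (Fin n → Bool) → ℝ}
    (hf : ∀ x, 0 < f x) {bad : Set (Fin n → ℝ)} [DecidablePred (· ∈ bad)]
    (hbad : MeasurableSet bad) (hδ : 0 ≤ δ)
    (hbound : ∀ Y : Fin n → ℝ, shiftSq A (skMat n (θ - t) g) (chField A y₀ Y) f ≤
      mean (skMat n (θ - t) g) (chField A y₀ Y) f *
        (K * ent (skMat n (θ - t) g) (chField A y₀ Y) f +
          if Y ∈ bad then δ * mean (skMat n (θ - t) g) (chField A y₀ Y) f else 0))
    {D : ℝ} (hD : ∫ z, (if (fun i => √t * z i) ∈ bad then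
        chG (skMat n θ g) y₀ A t (fun i => √t * z i) *
          mean (skMat n (θ - t) g) (chField A y₀ fun i => √t * z i) f else 0) ∂stdPi (Fin n) ≤ D) :
    chPhi θ g y₀ A t f ≤ (1 + 2 * (h * K)) *
      (chPhi θ g y₀ A (t + h) f +
        (h * δ * max D 0 + 144 * h ^ 2 * B ^ 2 * mean (skMat n θ g) y₀ f)) := by
  have hΦ0 : 0 ≤ chPhi θ g y₀ A t f := by
    rw [chPhi, ← (integral_chG_ent hA ht0 θ y₀ f).1]
    exact integral_nonneg fun z => mul_nonneg (chG_pos _ _ _).le (ent_nonneg hf)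
  have hsq : √t ^ 2 + √h ^ 2 = √(t + h) ^ 2 := by
    rw [Real.sq_sqrt ht0, Real.sq_sqrt h0, Real.sq_sqrt (add_nonneg ht0 h0)]
  set F : (Fin n → ℝ) → ℝ := fun Y => chG (skMat n θ g) y₀ A (t + h) Y *
    phi (mean (skMat n (θ - (t + h)) g) (chField A y₀ Y) f) with hF
  obtain ⟨p1, p2⟩ := integral_pair hsq (F := F) ((continuous_chG _ _ _ _).mul
    (continuous_phi.comp (continuous_mean_chField _ _ _ _))).measurable
    (integrable_chG_phi hA (add_nonneg ht0 h0) θ y₀ f)
  set G := fun z : Fin n → ℝ => chG (skMat n θ g) y₀ A t fun i => √t * z i with hG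
  set M := fun z : Fin n → ℝ =>
    mean (skMat n (θ - t) g) (chField A y₀ fun i => √t * z i) f with hM
  set E := fun z : Fin n → ℝ =>
    ent (skMat n (θ - t) g) (chField A y₀ fun i => √t * z i) f with hE
  set P := fun z : Fin n → ℝ => phi (M z) with hP
  set W := fun z : Fin n → ℝ => if (fun i => √t * z i) ∈ bad then G z * M z else 0 with hW
  have hiQ : Integrable (fun z => G z * P z) (stdPi (Fin n)) := integrable_chG_phi hA ht0 θ y₀ f
  obtain ⟨heE, hie⟩ := integral_chG_ent hA ht0 θ y₀ f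
  obtain ⟨heM, him⟩ := integral_chG_mean hA ht0 θ y₀ f
  have hs : Measurable fun z : Fin n → ℝ => fun i => √t * z i := by fun_prop
  have hib : Integrable W (stdPi (Fin n)) :=
    (him.indicator (hs hbad)).congr (Filter.Eventually.of_forall fun z => by
      by_cases hz : (fun i => √t * z i) ∈ bad <;> simp [W, Set.indicator, hz, G, M])
  have hpt : ∀ z, (∫ z', F (fun i => √t * z i + √h * z' i) ∂stdPi (Fin n)) - G z * P z ≤
      h * K * (G z * E z) + (h * δ * W z + 144 * h ^ 2 * B ^ 2 * (G z * M z)) := fun z => by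
    refine (channel_step hA hB h0 hhB θ y₀ (fun i => √t * z i) hf).trans ?_
    have hb := hbound fun i => √t * z i
    have hM0 : 0 < M z := Ent.mean_pos hf
    have hb' := div_le_div_of_nonneg_right (mul_le_mul_of_nonneg_left hb h0) hM0.le
    rw [mul_left_comm h, mul_div_cancel_left₀ _ hM0.ne'] at hb'
    have := mul_le_mul_of_nonneg_left hb' (chG_pos (A := A) (y₀ := y₀) (skMat n θ g) t
      fun i => √t * z i).le
    simp only [W, G, M, E] at this ⊢
    split_ifs at this ⊢ <;> linarith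
  have hint := integral_mono (p2.sub hiQ) ((hie.const_mul (h * K)).add
    ((hib.const_mul (h * δ)).add (him.const_mul (144 * h ^ 2 * B ^ 2)))) hpt
  simp only [Pi.add_apply, Pi.sub_apply] at hint
  rw [integral_sub p2 hiQ, p1, integral_add (hie.const_mul _)
    ((hib.const_mul _).fun_add (him.const_mul _)), integral_add (hib.const_mul _) (him.const_mul _),
    integral_const_mul, integral_const_mul, integral_const_mul, heE, heM] at hint
  have hD' := mul_le_mul_of_nonneg_left (hD.trans (le_max_left D 0)) (mul_nonneg h0 hδ)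
  have hint' : chQ θ g y₀ A (t + h) f - chQ θ g y₀ A t f ≤
      h * K * chPhi θ g y₀ A t f +
        (h * δ * max D 0 + 144 * h ^ 2 * B ^ 2 * mean (skMat n θ g) y₀ f) :=
    le_trans hint (add_le_add le_rfl (add_le_add hD' le_rfl))
  set e := h * δ * max D 0 + 144 * h ^ 2 * B ^ 2 * mean (skMat n θ g) y₀ f
  have hkey : chPhi θ g y₀ A t f * (1 - h * K) ≤ chPhi θ g y₀ A (t + h) f + e := by
    simp only [chPhi] at hint' ⊢
    linarith
  have hhK0 : 0 ≤ h * K := mul_nonneg h0 hK
  have := mul_le_mul_of_nonneg_left hkey (show 0 ≤ 1 + 2 * (h * K) by linarith)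
  have := mul_nonneg (mul_nonneg hΦ0 hhK0) (show 0 ≤ 1 - 2 * (h * K) by linarith)
  linarith

/-- The channel from strength `θ` to strength `θ - T` in `N` steps. -/
theorem channel_run (hA : IsRoot (skMat n 1 g) c L A) (hB : ∀ x, ∑ k, chDir A x k ^ 2 ≤ B)
    (hT : 0 ≤ T) (hN : 0 < N) (hK : 0 ≤ K) (hTB : 4 * (T / N * B) ≤ 1) (hTK : 2 * (T / N * K) ≤ 1)
    (θ : ℝ) (y₀ : Fin n → ℝ) {f : (Fin n → Bool) → ℝ} (hf : ∀ x, 0 < f x)
    (bad : ℕ → Set (Fin n → ℝ)) [∀ k, DecidablePred (· ∈ bad k)] (hbad : ∀ k, MeasurableSet (bad k))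
    (hδ : 0 ≤ δ)
    (hbound : ∀ k < N, ∀ Y : Fin n → ℝ,
      shiftSq A (skMat n (θ - T * k / N) g) (chField A y₀ Y) f ≤
        mean (skMat n (θ - T * k / N) g) (chField A y₀ Y) f *
          (K * ent (skMat n (θ - T * k / N) g) (chField A y₀ Y) f +
            if Y ∈ bad k then δ * mean (skMat n (θ - T * k / N) g) (chField A y₀ Y) f else 0))
    {D : ℝ} (hD : ∀ k < N, ∫ z, (if (fun i => √(T * k / N) * z i) ∈ bad k then
        chG (skMat n θ g) y₀ A (T * k / N) (fun i => √(T * k / N) * z i) *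
          mean (skMat n (θ - T * k / N) g) (chField A y₀ fun i => √(T * k / N) * z i) f
        else 0) ∂stdPi (Fin n) ≤ D) :
    ent (skMat n θ g) y₀ f ≤ Real.exp (2 * T * K) *
      ((∫ z, chG (skMat n θ g) y₀ A T (fun i => √T * z i) *
          ent (skMat n (θ - T) g) (chField A y₀ fun i => √T * z i) f ∂stdPi (Fin n)) +
        (T * δ * max D 0 + 144 * (T / N) * T * B ^ 2 * mean (skMat n θ g) y₀ f)) := by
  have hN' : (0 : ℝ) < N := by exact_mod_cast hN
  set h := T / N with hh
  have h0 : 0 ≤ h := div_nonneg hT hN'.le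
  set m := mean (skMat n θ g) y₀ f
  have hm0 : 0 < m := Ent.mean_pos hf
  set e := h * δ * max D 0 + 144 * h ^ 2 * B ^ 2 * m with he
  have he0 : 0 ≤ e := by positivity
  have hr : 1 ≤ 1 + 2 * (h * K) := by linarith [mul_nonneg h0 hK]
  set Φ : ℕ → ℝ := fun k => chPhi θ g y₀ A (T * k / N) f with hΦ
  have step : ∀ k < N, Φ k ≤ (1 + 2 * (h * K)) * (Φ (k + 1) + e) := fun k hk => by
    have e1 : T * ((k + 1 : ℕ) : ℝ) / N = T * k / N + h := by rw [hh]; push_cast; ring
    simp only [hΦ, e1]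
    exact chPhi_step hA hB h0 (by positivity) hK hTB hTK θ y₀ hf (hbad k) hδ (hbound k hk) (hD k hk)
  have iter : ∀ j ≤ N, Φ (N - j) ≤ (1 + 2 * (h * K)) ^ j * (Φ N + j * e) := by
    intro j hj
    induction j with
    | zero => simp
    | succ j ih =>
      have h1 := step (N - (j + 1)) (by omega)
      rw [show N - (j + 1) + 1 = N - j by omega] at h1
      refine h1.trans ?_
      have h2 : e ≤ (1 + 2 * (h * K)) ^ j * e := le_mul_of_one_le_left he0 (one_le_pow₀ hr)
      refine (mul_le_mul_of_nonneg_left (add_le_add (ih (by omega)) h2) (by linarith)).trans_eq ?_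
      push_cast
      ring
  have h0' := iter N le_rfl
  rw [Nat.sub_self] at h0'
  have hΦ0 : Φ 0 = ent (skMat n θ g) y₀ f := by simp [hΦ, chPhi, chQ_zero hA, ent]
  have hΦN : Φ N = ∫ z, chG (skMat n θ g) y₀ A T (fun i => √T * z i) *
      ent (skMat n (θ - T) g) (chField A y₀ fun i => √T * z i) f ∂stdPi (Fin n) := by
    rw [(integral_chG_ent hA hT θ y₀ f).1]
    simp only [hΦ, chPhi, mul_div_assoc, div_self hN'.ne', mul_one]
  have hΦnn : 0 ≤ Φ N := by
    rw [hΦN]
    exact integral_nonneg fun z => mul_nonneg (chG_pos _ _ _).le (ent_nonneg hf)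
  rw [hΦ0] at h0'
  refine h0'.trans ?_
  have hexp : (1 + 2 * (h * K)) ^ N ≤ Real.exp (2 * T * K) := by
    refine (pow_le_pow_left₀ (by linarith)
      ((Real.add_one_le_exp (2 * (h * K))).trans' (by linarith)) N).trans ?_
    rw [← Real.exp_nat_mul, hh]
    refine le_of_eq (congrArg _ ?_)
    field_simp
  have hNe : (N : ℝ) * e = T * δ * max D 0 + 144 * h * T * B ^ 2 * m := by
    rw [he, hh]
    field_simp
  refine mul_le_mul hexp ?_ (by linarith [mul_nonneg hN'.le he0]) (Real.exp_pos _).le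
  rw [← hΦN]
  linarith

end Vale.Agent.P150.Beyond
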