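import Vale.Agent.P150.Beyond.Channel.Basic

/-!
# P150 beyond one half: one step of the channel

In time `h` the entropy carried by the observation grows by at most `h` times the squared change of
the magnetisations in the metric of `K + c`, plus `O(h²)`.
-/

open Finset MeasureTheory Real
open Vale.Agent.P150.Fast
open Vale.Agent.P150.Fast.Ent (ent entAt phi)

namespace Vale.Agent.P150.Beyond

theorem phi_le_quad {a u : ℝ} (ha : 0 ≤ a) (hu : 0 < u) :
    phi a ≤ phi u + (Real.log u + 1) * (a - u) + (a - u) ^ 2 / u := by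
  rcases ha.eq_or_lt with rfl | ha
  · simp [phi]; field_simp; ring_nf; rfl
  · have h1 := mul_le_mul_of_nonneg_left (Real.log_le_sub_one_of_pos (div_pos ha hu)) ha.le
    rw [Real.log_div ha.ne' hu.ne'] at h1
    have e : phi u + (Real.log u + 1) * (a - u) + (a - u) ^ 2 / u =
        a * Real.log u + a * (a / u - 1) := by rw [phi]; field_simp; ring
    rw [e, phi]
    linarith

variable {n : ℕ}

/-- A centred second moment of exponentials. -/
theorem sum_exp_pair_le {X : Type*} [Fintype X] {κ : Type*} [Fintype κ] (D : X → ℝ)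
    (hD : ∑ x, D x = 0) (b : X → κ → ℝ) {B M h : ℝ} (hb : ∀ x, ∑ k, b x k ^ 2 ≤ B)
    (hDM : ∑ x, |D x| ≤ M) (h0 : 0 ≤ h) (hB : h * B ≤ 1) :
    ∑ x, ∑ y, D x * D y * Real.exp (h * ∑ k, b x k * b y k) ≤
      h * ∑ k, (∑ x, D x * b x k) ^ 2 + h ^ 2 * B ^ 2 * M ^ 2 := by
  have hxy : ∀ x y, |h * ∑ k, b x k * b y k| ≤ h * B := fun x y => by
    rw [abs_mul, abs_of_nonneg h0]
    refine mul_le_mul_of_nonneg_left ?_ h0
    calc |∑ k, b x k * b y k| ≤ ∑ k, (b x k ^ 2 + b y k ^ 2) / 2 := by
          refine (Finset.abs_sum_le_sum_abs _ _).trans (Finset.sum_le_sum fun k _ => ?_)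
          rw [abs_le]
          constructor <;> linarith [sq_nonneg (b x k - b y k), sq_nonneg (b x k + b y k),
            add_sq (b x k) (b y k), sub_sq (b x k) (b y k)]
      _ ≤ B := by rw [← Finset.sum_div, Finset.sum_add_distrib]; linarith [hb x, hb y]
  have key : ∀ x y, D x * D y * Real.exp (h * ∑ k, b x k * b y k) ≤
      D x * D y + h * (∑ k, D x * b x k * (D y * b y k)) + h ^ 2 * B ^ 2 * (|D x| * |D y|) :=
    fun x y => by
    set u := h * ∑ k, b x k * b y k with hu
    have hu2 : |Real.exp u - 1 - u| ≤ h ^ 2 * B ^ 2 := by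
      refine (Real.abs_exp_sub_one_sub_id_le ((hxy x y).trans hB)).trans ?_
      rw [← sq_abs, ← mul_pow]
      exact pow_le_pow_left₀ (abs_nonneg _) (hxy x y) 2
    have h1 : D x * D y * (Real.exp u - 1 - u) ≤ |D x| * |D y| * (h ^ 2 * B ^ 2) := by
      refine (le_abs_self _).trans ?_
      rw [abs_mul, abs_mul]
      exact mul_le_mul_of_nonneg_left hu2 (mul_nonneg (abs_nonneg _) (abs_nonneg _))
    have e : h * (∑ k, D x * b x k * (D y * b y k)) = D x * D y * u := by
      rw [hu, Finset.mul_sum, Finset.mul_sum, Finset.mul_sum]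
      exact Finset.sum_congr rfl fun k _ => by ring
    rw [e]
    linarith
  refine (Finset.sum_le_sum fun x _ => Finset.sum_le_sum fun y _ => key x y).trans ?_
  have e1 : ∑ x, ∑ y, D x * D y = 0 := by rw [← Finset.sum_mul_sum, hD, zero_mul]
  have e2 : ∑ x, ∑ y, ∑ k, D x * b x k * (D y * b y k) = ∑ k, (∑ x, D x * b x k) ^ 2 := by
    simp only [sq, Finset.sum_mul_sum]
    rw [Finset.sum_comm (s := univ) (t := univ) (f := fun k x => ∑ y, D x * b x k * (D y * b y k))]
    exact Finset.sum_congr rfl fun x _ => Finset.sum_comm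
  have e3 : ∑ x, ∑ y, |D x| * |D y| ≤ M ^ 2 := by
    rw [← Finset.sum_mul_sum, ← sq]
    exact pow_le_pow_left₀ (Finset.sum_nonneg fun x _ => abs_nonneg _) hDM 2
  simp only [Finset.sum_add_distrib, ← Finset.mul_sum] at e1 e2 e3 ⊢
  rw [e1, e2, zero_add]
  linarith [mul_le_mul_of_nonneg_left e3 (mul_nonneg (sq_nonneg h) (sq_nonneg B))]

variable {g : Edge n → ℝ} {c L : ℝ} {A : Fin n → Fin n → ℝ}

/-- The squared change of the magnetisations, seen through `A^T`. -/
noncomputable def shiftSq (A : Fin n → Fin n → ℝ) (J : Fin n → Fin n → ℝ) (y : Fin n → ℝ)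
    (f : (Fin n → Bool) → ℝ) : ℝ :=
  ∑ k, (∑ i, A i k * magShift J y f i) ^ 2

theorem shiftSq_eq (A : Fin n → Fin n → ℝ) (J : Fin n → Fin n → ℝ) (y : Fin n → ℝ)
    (f : (Fin n → Bool) → ℝ) :
    shiftSq A J y f =
      ∑ k, (∑ x, weight J y x * (f x - mean J y f) * chDir A x k) ^ 2 := by
  refine Finset.sum_congr rfl fun k _ => ?_
  congr 1
  simp only [chDir, magShift, Ent.mag, mean, Finset.mul_sum, ← Finset.sum_sub_distrib]
  rw [Finset.sum_comm]
  exact Finset.sum_congr rfl fun x _ => Finset.sum_congr rfl fun i _ => by ring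

/-- One step of the channel from time `t`. -/
theorem channel_step (hA : IsRoot (skMat n 1 g) c L A) {B h t : ℝ}
    (hB : ∀ x, ∑ k, chDir A x k ^ 2 ≤ B) (h0 : 0 ≤ h) (hhB : 4 * (h * B) ≤ 1) (θ : ℝ)
    (y₀ Y : Fin n → ℝ) {f : (Fin n → Bool) → ℝ} (hf : ∀ x, 0 < f x) :
    ∫ z, chG (skMat n θ g) y₀ A (t + h) (fun k => Y k + √h * z k) *
        phi (mean (skMat n (θ - (t + h)) g) (chField A y₀ fun k => Y k + √h * z k) f)
          ∂stdPi (Fin n) -
      chG (skMat n θ g) y₀ A t Y * phi (mean (skMat n (θ - t) g) (chField A y₀ Y) f) ≤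
    chG (skMat n θ g) y₀ A t Y *
      (h * shiftSq A (skMat n (θ - t) g) (chField A y₀ Y) f /
          mean (skMat n (θ - t) g) (chField A y₀ Y) f +
        144 * h ^ 2 * B ^ 2 * mean (skMat n (θ - t) g) (chField A y₀ Y) f) := by
  set p := weight (skMat n (θ - t) g) (chField A y₀ Y) with hp
  set G := chG (skMat n θ g) y₀ A t Y with hG
  set M := mean (skMat n (θ - t) g) (chField A y₀ Y) f with hM
  have hG0 : 0 < G := chG_pos _ _ _
  have hp0 : ∀ x, 0 < p x := fun x => weight_pos _ x
  have hp1 : ∑ x, p x = 1 := sum_weight _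
  have hM0 : 0 < M := Ent.mean_pos hf
  set ξ : (Fin n → ℝ) → (Fin n → Bool) → ℝ := fun z x => chTilt A h (fun k => √h * z k) x with hξ
  have hsplit : ∀ z x, chTilt A (t + h) (fun k => Y k + √h * z k) x = chTilt A t Y x * ξ z x :=
    fun z x => by
    simp only [hξ, chTilt, ← Real.exp_add]
    congr 1
    simp only [add_mul, Finset.sum_add_distrib]
    ring
  have hsum : ∀ z F, chG (skMat n θ g) y₀ A (t + h) (fun k => Y k + √h * z k) *
      mean (skMat n (θ - (t + h)) g) (chField A y₀ fun k => Y k + √h * z k) F =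
      G * ∑ x, p x * F x * ξ z x := fun z F => by
    rw [← sum_weight_tilt hA, Finset.mul_sum]
    refine Finset.sum_congr rfl fun x _ => ?_
    rw [hsplit, ← mul_assoc, ← weight_channel hA θ t y₀ Y x]
    ring
  -- pointwise in the new noise
  set R : (Fin n → ℝ) → ℝ := fun z => ∑ x, p x * ξ z x with hR
  set D : (Fin n → Bool) → ℝ := fun x => p x * (f x - M) with hD
  set m : (Fin n → ℝ) → ℝ := fun z => ∑ x, p x * (∑ k, √h * z k * chDir A x k -
    h / 2 * ∑ k, chDir A x k ^ 2) with hm
  have hpoint : ∀ z, chG (skMat n θ g) y₀ A (t + h) (fun k => Y k + √h * z k) *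
      phi (mean (skMat n (θ - (t + h)) g) (chField A y₀ fun k => Y k + √h * z k) f) ≤
      G * (phi M * R z + (Real.log M + 1) * (∑ x, D x * ξ z x) +
        ((∑ x, D x * ξ z x) ^ 2 * Real.exp (-m z)) / M) := fun z => by
    set G' := chG (skMat n θ g) y₀ A (t + h) (fun k => Y k + √h * z k) with hG'
    set M' := mean (skMat n (θ - (t + h)) g) (chField A y₀ fun k => Y k + √h * z k) f with hM'
    have eG : G' = G * R z := by
      have := hsum z fun _ => 1
      simpa [mean_const, hR] using this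
    have eM : G' * M' = G * ∑ x, p x * f x * ξ z x := hsum z f
    have hR0 : 0 < R z := Finset.sum_pos (fun x _ => mul_pos (hp0 x) (Real.exp_pos _)) univ_nonempty
    have hRm : Real.exp (m z) ≤ R z := by
      have hsm := Finset.sum_le_sum (s := univ) fun x _ => mul_le_mul_of_nonneg_left
        (mul_le_mul_of_nonneg_left (Real.add_one_le_exp ((∑ k, √h * z k * chDir A x k -
          h / 2 * ∑ k, chDir A x k ^ 2) - m z)) (Real.exp_pos (m z)).le) (hp0 x).le
      simp only [← Real.exp_add, add_sub_cancel] at hsm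
      refine le_trans (le_of_eq ?_) hsm
      have : ∑ x, p x * (Real.exp (m z) * (∑ k, √h * z k * chDir A x k -
          h / 2 * ∑ k, chDir A x k ^ 2 - m z + 1)) =
          Real.exp (m z) * (m z + (1 - m z) * ∑ x, p x) := by
        rw [mul_add, hm, Finset.mul_sum, Finset.mul_sum, Finset.mul_sum, ← Finset.sum_add_distrib]
        exact Finset.sum_congr rfl fun x _ => by ring
      rw [this, hp1]
      ring
    have eD : ∑ x, D x * ξ z x = (M' - M) * R z := by
      have e : ∑ x, D x * ξ z x = (∑ x, p x * f x * ξ z x) - M * R z := by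
        simp only [hD, hR, Finset.mul_sum, ← Finset.sum_sub_distrib]
        exact Finset.sum_congr rfl fun x _ => by ring
      rw [eG, mul_assoc] at eM
      rw [e, ← mul_left_cancel₀ hG0.ne' eM]
      ring
    have hq := mul_le_mul_of_nonneg_left (phi_le_quad (Ent.mean_pos (J := skMat n (θ - (t + h)) g)
      (h := chField A y₀ fun k => Y k + √h * z k) hf).le hM0) hR0.le
    rw [eG, mul_assoc]
    refine mul_le_mul_of_nonneg_left (hq.trans ?_) hG0.le
    rw [eD]
    have h2 : R z * ((M' - M) ^ 2 / M) ≤ ((M' - M) * R z) ^ 2 * Real.exp (-m z) / M := by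
      rw [← mul_div_assoc]
      refine div_le_div_of_nonneg_right ?_ hM0.le
      rw [Real.exp_neg, ← div_eq_mul_inv, le_div_iff₀ (Real.exp_pos _)]
      calc R z * (M' - M) ^ 2 * Real.exp (m z) ≤ R z * (M' - M) ^ 2 * R z :=
            mul_le_mul_of_nonneg_left hRm (mul_nonneg hR0.le (sq_nonneg _))
        _ = _ := by ring
    linarith
  -- integrate
  set ā : Fin n → ℝ := fun k => ∑ x, p x * chDir A x k with hā
  set m2 := ∑ x, p x * ∑ k, chDir A x k ^ 2 with hm2
  set b : (Fin n → Bool) → Fin n → ℝ := fun x k => chDir A x k - ā k with hbdef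
  set V := m2 - ∑ k, ā k ^ 2 with hV
  have hquad : ∀ z, (∑ x, D x * ξ z x) ^ 2 * Real.exp (-m z) =
      ∑ x, ∑ y, D x * D y * (Real.exp (-(h / 2) * (∑ k, chDir A x k ^ 2 + ∑ k, chDir A y k ^ 2 - m2)) *
        Real.exp (∑ k, (√h * (chDir A x k + chDir A y k - ā k)) * z k)) := fun z => by
    have em : m z = (∑ k, √h * z k * ā k) - h / 2 * m2 := by
      simp only [hm, hā, hm2, mul_sub, Finset.sum_sub_distrib, Finset.mul_sum]
      congr 1
      · rw [Finset.sum_comm]
        exact Finset.sum_congr rfl fun k _ => Finset.sum_congr rfl fun x _ => by ring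
      · exact Finset.sum_congr rfl fun x _ => Finset.sum_congr rfl fun k _ => by ring
    rw [sq, Finset.sum_mul_sum, Finset.sum_mul]
    refine Finset.sum_congr rfl fun x _ => ?_
    rw [Finset.sum_mul]
    refine Finset.sum_congr rfl fun y _ => ?_
    rw [show D x * ξ z x * (D y * ξ z y) * Real.exp (-m z) =
      D x * D y * (ξ z x * ξ z y * Real.exp (-m z)) by ring]
    simp only [hξ, chTilt, em, ← Real.exp_add]
    congr 2
    simp only [mul_sub, mul_add, sub_mul, add_mul, Finset.sum_sub_distrib, Finset.sum_add_distrib]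
    simp only [mul_right_comm _ (chDir A _ _), mul_right_comm _ (ā _)]
    ring
  have hint1 : ∀ x, Integrable (fun z => ξ z x) (stdPi (Fin n)) := fun x => (integral_chTilt h0 x).2
  have hint2 : ∀ x y, Integrable (fun z : Fin n → ℝ => D x * D y *
      (Real.exp (-(h / 2) * (∑ k, chDir A x k ^ 2 + ∑ k, chDir A y k ^ 2 - m2)) *
        Real.exp (∑ k, (√h * (chDir A x k + chDir A y k - ā k)) * z k))) (stdPi (Fin n)) :=
    fun x y => ((integrable_exp_dot _).const_mul _).const_mul _
  have hIR : ∫ z, R z ∂stdPi (Fin n) = 1 ∧ Integrable R (stdPi (Fin n)) := by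
    refine ⟨?_, integrable_finsetSum _ fun x _ => (hint1 x).const_mul _⟩
    simp only [hR]
    rw [integral_finsetSum _ fun x _ => (hint1 x).const_mul _]
    simp only [integral_const_mul, hξ, (integral_chTilt h0 _).1, mul_one, hp1]
  have hD0 : ∑ x, D x = 0 := by
    simp only [hD, mul_sub, Finset.sum_sub_distrib, ← Finset.sum_mul, hp1, hM, mean, ← hp]
    ring
  have hID : ∫ z, ∑ x, D x * ξ z x ∂stdPi (Fin n) = 0 ∧
      Integrable (fun z => ∑ x, D x * ξ z x) (stdPi (Fin n)) := by
    refine ⟨?_, integrable_finsetSum _ fun x _ => (hint1 x).const_mul _⟩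
    rw [integral_finsetSum _ fun x _ => (hint1 x).const_mul _]
    simp only [integral_const_mul, hξ, (integral_chTilt h0 _).1, mul_one, hD0]
  have hIQ : ∫ z, (∑ x, D x * ξ z x) ^ 2 * Real.exp (-m z) ∂stdPi (Fin n) =
      Real.exp (h * V / 2) * ∑ x, ∑ y, D x * D y * Real.exp (h * ∑ k, b x k * b y k) := by
    simp only [hquad]
    rw [integral_finsetSum _ fun x _ => integrable_finsetSum _ fun y _ => hint2 x y,
      Finset.mul_sum]
    refine Finset.sum_congr rfl fun x _ => ?_
    rw [integral_finsetSum _ fun y _ => hint2 x y, Finset.mul_sum]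
    refine Finset.sum_congr rfl fun y _ => ?_
    rw [integral_const_mul, integral_const_mul, integral_exp_dot, ← Real.exp_add,
      mul_left_comm (Real.exp _), ← Real.exp_add]
    congr 2
    have f1 : ∑ k, (√h * (chDir A x k + chDir A y k - ā k)) ^ 2 =
        h * ((∑ k, chDir A x k ^ 2) + (∑ k, chDir A y k ^ 2) + (∑ k, ā k ^ 2) +
          2 * (∑ k, chDir A x k * chDir A y k) - 2 * (∑ k, chDir A x k * ā k) -
          2 * ∑ k, chDir A y k * ā k) := by
      simp only [mul_pow, Real.sq_sqrt h0, ← Finset.mul_sum]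
      congr 1
      simp only [Finset.mul_sum, ← Finset.sum_add_distrib, ← Finset.sum_sub_distrib]
      exact Finset.sum_congr rfl fun k _ => by ring
    have f2 : ∑ k, b x k * b y k = (∑ k, chDir A x k * chDir A y k) -
        (∑ k, chDir A x k * ā k) - (∑ k, chDir A y k * ā k) + ∑ k, ā k ^ 2 := by
      simp only [hbdef, ← Finset.sum_add_distrib, ← Finset.sum_sub_distrib]
      exact Finset.sum_congr rfl fun k _ => by ring
    rw [f1, f2, hV]
    ring
  have hIQi : Integrable (fun z => (∑ x, D x * ξ z x) ^ 2 * Real.exp (-m z)) (stdPi (Fin n)) := by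
    simp only [hquad]
    exact integrable_finsetSum _ fun x _ => integrable_finsetSum _ fun y _ => hint2 x y
  have hi2 := (((hIR.2.const_mul (phi M)).add (hID.2.const_mul (Real.log M + 1))).add
    (hIQi.div_const M)).const_mul G
  have hintF : Integrable (fun z => chG (skMat n θ g) y₀ A (t + h) (fun k => Y k + √h * z k) *
      phi (mean (skMat n (θ - (t + h)) g) (chField A y₀ fun k => Y k + √h * z k) f))
      (stdPi (Fin n)) := by
    have hm : Continuous fun z : Fin n → ℝ =>
        chG (skMat n θ g) y₀ A (t + h) (fun k => Y k + √h * z k) *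
        phi (mean (skMat n (θ - (t + h)) g) (chField A y₀ fun k => Y k + √h * z k) f) := by
      have := continuous_phi
      unfold chG chTilt mean weight ham chField
      fun_prop (disch := exact fun _ => (Finset.sum_pos (fun _ _ => Real.exp_pos _) univ_nonempty).ne')
    obtain ⟨C, hC⟩ := exists_phi_bound f
    refine Integrable.mono' ((hIR.2.const_mul (G * C))) hm.aestronglyMeasurable
      (Filter.Eventually.of_forall fun z => ?_)
    rw [Real.norm_eq_abs, abs_mul, abs_of_pos (chG_pos _ _ _)]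
    have e := hsum z fun _ => 1
    simp only [mean_const, mul_one] at e
    rw [e, mul_right_comm G C]
    exact mul_le_mul_of_nonneg_left (hC _ _) (mul_nonneg hG0.le
      (Finset.sum_nonneg fun x _ => mul_nonneg (hp0 x).le (Real.exp_pos _).le))
  have hle := integral_mono hintF hi2 hpoint
  simp only [Pi.add_apply] at hle
  rw [integral_const_mul, integral_add ((hIR.2.const_mul _).fun_add (hID.2.const_mul _))
      (hIQi.div_const M), integral_add (hIR.2.const_mul _) (hID.2.const_mul _), integral_const_mul,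
    integral_const_mul, hIR.1, hID.1, integral_div, hIQ] at hle
  -- the size of the last term
  have hB0 : 0 ≤ B := le_trans (Finset.sum_nonneg fun k _ => sq_nonneg _) (hB fun _ => true)
  have hm2B : m2 ≤ B := by
    refine (Finset.sum_le_sum fun x _ => mul_le_mul_of_nonneg_left (hB x) (hp0 x).le).trans ?_
    rw [← Finset.sum_mul, hp1, one_mul]
  have hām2 : ∑ k, ā k ^ 2 ≤ m2 := by
    rw [hm2]
    simp only [Finset.mul_sum]
    rw [Finset.sum_comm]
    refine Finset.sum_le_sum fun k _ => ?_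
    have := mean_sq_le (chField A y₀ Y) (J := skMat n (θ - t) g) fun x => chDir A x k
    exact this
  have hb : ∀ x, ∑ k, b x k ^ 2 ≤ 4 * B := fun x => by
    have : ∀ k, b x k ^ 2 ≤ 2 * chDir A x k ^ 2 + 2 * ā k ^ 2 := fun k => by
      have := add_sq_le (a := chDir A x k) (b := -ā k)
      rw [neg_sq] at this
      simp only [hbdef, sub_eq_add_neg]
      linarith
    refine (Finset.sum_le_sum fun k _ => this k).trans ?_
    rw [Finset.sum_add_distrib, ← Finset.mul_sum, ← Finset.mul_sum]
    linarith [hB x]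
  have hDM : ∑ x, |D x| ≤ 2 * M := by
    calc ∑ x, |D x| ≤ ∑ x, p x * (f x + M) := Finset.sum_le_sum fun x _ => by
          rw [hD, abs_mul, abs_of_pos (hp0 x)]
          refine mul_le_mul_of_nonneg_left ?_ (hp0 x).le
          rw [abs_le]; constructor <;> linarith [hf x]
      _ = 2 * M := by
          simp only [mul_add, Finset.sum_add_distrib, ← Finset.sum_mul, hp1, hM, mean, ← hp]
          ring
  set S := shiftSq A (skMat n (θ - t) g) (chField A y₀ Y) f with hS
  have eS : ∑ k, (∑ x, D x * b x k) ^ 2 = S := by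
    rw [hS, shiftSq_eq]
    refine Finset.sum_congr rfl fun k _ => ?_
    congr 1
    simp only [hbdef, mul_sub, Finset.sum_sub_distrib, ← Finset.sum_mul, hD0]
    simp only [hD, ← hp, ← hM, mul_sub, zero_mul, sub_zero]
  have hpair := sum_exp_pair_le D hD0 b hb hDM h0 (by linarith)
  rw [eS] at hpair
  have hS16 : S ≤ (2 * M) ^ 2 * (4 * B) := by
    rw [← eS]
    refine (Finset.sum_le_sum fun k _ => abs_sum_sq_le D fun x => b x k).trans ?_
    rw [← Finset.mul_sum]
    rw [Finset.sum_comm]
    calc (∑ x, |D x|) * ∑ x, ∑ k, |D x| * b x k ^ 2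
        = (∑ x, |D x|) * ∑ x, |D x| * ∑ k, b x k ^ 2 := by simp only [Finset.mul_sum]
      _ ≤ (∑ x, |D x|) * ∑ x, |D x| * (4 * B) :=
          mul_le_mul_of_nonneg_left (Finset.sum_le_sum fun x _ =>
            mul_le_mul_of_nonneg_left (hb x) (abs_nonneg _)) (Finset.sum_nonneg fun x _ => abs_nonneg _)
      _ = (∑ x, |D x|) ^ 2 * (4 * B) := by rw [← Finset.sum_mul]; ring
      _ ≤ _ := mul_le_mul_of_nonneg_right
          (pow_le_pow_left₀ (Finset.sum_nonneg fun x _ => abs_nonneg _) hDM 2) (by linarith)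
  have hS0 : 0 ≤ S := Finset.sum_nonneg fun k _ => sq_nonneg _
  have hhB0 : 0 ≤ h * B := mul_nonneg h0 hB0
  have hE : Real.exp (h * V / 2) ≤ 1 + h * B := by
    have hV0 : 0 ≤ V := by linarith
    have h1 : h * V ≤ h * B := mul_le_mul_of_nonneg_left
      (by linarith [Finset.sum_nonneg (s := univ) fun k _ => sq_nonneg (ā k)]) h0
    have h3 := Real.abs_exp_sub_one_le (x := h * V / 2)
      (by rw [abs_of_nonneg (by positivity)]; linarith)
    rw [abs_of_nonneg (show 0 ≤ h * V / 2 by positivity)] at h3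
    linarith [(abs_le.1 h3).2]
  have hfin : Real.exp (h * V / 2) * (∑ x, ∑ y, D x * D y * Real.exp (h * ∑ k, b x k * b y k)) ≤
      h * S + 144 * h ^ 2 * B ^ 2 * M ^ 2 := by
    refine (mul_le_mul_of_nonneg_left hpair (Real.exp_pos _).le).trans ?_
    refine (mul_le_mul_of_nonneg_right hE (add_nonneg (mul_nonneg h0 hS0) (by positivity))).trans ?_
    have k1 := mul_le_mul_of_nonneg_left hS16 (mul_nonneg hhB0 h0)
    have k2 := mul_le_mul_of_nonneg_right (show h * B ≤ 1 by linarith)
      (show 0 ≤ h ^ 2 * (4 * B) ^ 2 * (2 * M) ^ 2 by positivity)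
    linarith
  have k3 := mul_le_mul_of_nonneg_left (div_le_div_of_nonneg_right hfin hM0.le) hG0.le
  have e4 : (h * S + 144 * h ^ 2 * B ^ 2 * M ^ 2) / M = h * S / M + 144 * h ^ 2 * B ^ 2 * M := by
    field_simp
  rw [e4] at k3
  linarith
where
  abs_sum_sq_le (D : (Fin n → Bool) → ℝ) (v : (Fin n → Bool) → ℝ) :
      (∑ x, D x * v x) ^ 2 ≤ (∑ x, |D x|) * ∑ x, |D x| * v x ^ 2 :=
    Finset.sum_sq_le_sum_mul_sum_of_sq_le_mul (R := ℝ) univ (fun x _ => abs_nonneg _)
      (fun x _ => mul_nonneg (abs_nonneg _) (sq_nonneg _))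
      fun x _ => le_of_eq (by rw [mul_pow, ← sq_abs (D x)]; ring)
  exists_phi_bound (f : (Fin n → Bool) → ℝ) :
      ∃ C, ∀ (J : Fin n → Fin n → ℝ) (y : Fin n → ℝ), |phi (mean J y f)| ≤ C := by
    obtain ⟨a, ha⟩ := (Set.finite_range f).bddAbove
    obtain ⟨b, hb⟩ := (Set.finite_range f).bddBelow
    obtain ⟨C, hC⟩ := (isCompact_Icc (a := b) (b := a)).exists_bound_of_continuousOn
      continuous_phi.continuousOn
    exact ⟨C, fun J y => hC _ ⟨(mean_const y b).symm.trans_le (mean_le_mean y fun x => hb ⟨x, rfl⟩),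
      (mean_le_mean y fun x => ha ⟨x, rfl⟩).trans_eq (mean_const y a)⟩⟩

end Vale.Agent.P150.Beyond
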